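import Vale.Agent.P212.H35.One

/-! The maximal and the reduced Roe algebra are completions to which the theorem applies. -/

namespace Vale.Agent.P212.H35

/-- The maximal norm is at least the operator norm. -/
theorem norm_le_of_isMaxRoe {X : Type} [MetricSpace X] {H : Type} [NormedAddCommGroup H]
    [InnerProductSpace ℂ H] [CompleteSpace H] {b : HilbertBasis (X × ℕ) ℂ H} {A : Type}
    [NonUnitalCStarAlgebra A] {i : (H →L[ℂ] H) → A} (h : IsMaxRoe b i) {T : H →L[ℂ] H}
    (hT : IsRoeOp b T) : ‖T‖ ≤ ‖i T‖ :=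
  h.2.2 (H →L[ℂ] H) (fun T => T) (fun _ _ _ _ => ⟨rfl, rfl, rfl, fun _ => rfl⟩) T hT

section Red

variable (X : Type) [MetricSpace X] [BddGeometry X]

/-- The reduced Roe algebra of `X`: the closure of `ℂ[X]` in the operator norm. -/
noncomputable def redRoe : NonUnitalStarSubalgebra ℂ (BX X) :=
  (roeN (gX X)).topologicalClosure

instance isClosed_redRoe : IsClosed (redRoe X : Set (BX X)) :=
  (roeN (gX X)).isClosed_topologicalClosure

noncomputable instance instCStarRedRoe : NonUnitalCStarAlgebra (redRoe X) := inferInstance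

open Classical in
/-- The inclusion of `ℂ[X]`. -/
noncomputable def redF (T : BX X) : redRoe X :=
  if h : IsRoe (gX X) T then ⟨T, (roeN (gX X)).le_topologicalClosure h⟩ else 0

theorem coe_redF {T : BX X} (h : IsRoe (gX X) T) : (redF X T : BX X) = T := by
  rw [redF, dif_pos h]

theorem exists_reduced :
    StarHomOn (IsRoeOp (stdB (X × ℕ))) (redF X) ∧
      Dense (redF X '' {T | IsRoeOp (stdB (X × ℕ)) T}) ∧
      ∀ T, IsRoeOp (stdB (X × ℕ)) T → ‖redF X T‖ = ‖T‖ := by
  refine ⟨fun S T hS hT => ?_, ?_, fun T hT => ?_⟩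
  · have hS' := (isRoeOp_iff S).1 hS
    have hT' := (isRoeOp_iff T).1 hT
    refine ⟨Subtype.ext ?_, Subtype.ext ?_, Subtype.ext ?_, fun c => Subtype.ext ?_⟩
    · change _ = (redF X S : BX X) + (redF X T : BX X)
      rw [coe_redF X hS', coe_redF X hT', coe_redF X (hS'.add hT')]
    · change _ = (redF X S : BX X) * (redF X T : BX X)
      rw [coe_redF X hS', coe_redF X hT', coe_redF X (hS'.mul hT')]
    · change _ = star (redF X T : BX X)
      rw [coe_redF X hT', coe_redF X hT'.star]
    · change _ = c • (redF X T : BX X)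
      rw [coe_redF X hT', coe_redF X (hT'.smul c)]
  · intro a
    rw [closure_subtype]
    have h : ((Subtype.val : redRoe X → BX X) '' (redF X '' {T | IsRoeOp (stdB (X × ℕ)) T})) =
        (roeN (gX X) : Set (BX X)) := by
      ext T
      constructor
      · rintro ⟨_, ⟨S, hS, rfl⟩, rfl⟩
        have hS' := (isRoeOp_iff S).1 hS
        rw [coe_redF X hS']
        exact hS'
      · intro hT
        exact ⟨redF X T, ⟨T, (isRoeOp_iff T).2 hT, rfl⟩, coe_redF X hT⟩
    rw [h]
    exact a.2
  · have hT' := (isRoeOp_iff T).1 hT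
    change ‖(redF X T : BX X)‖ = ‖T‖
    rw [coe_redF X hT']

end Red

end Vale.Agent.P212.H35
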