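import Vale.Agent.P212.RoeMax

/-! Extension of homomorphisms from a dense *-subalgebra. -/

namespace Vale.Agent.P212.H35

open Filter Topology

/-- The predicate is closed under the operations of a *-algebra. -/
structure IsSub {E : Type} [NonUnitalCStarAlgebra E] (P : E → Prop) : Prop where
  zero : P 0
  add : ∀ S T, P S → P T → P (S + T)
  mul : ∀ S T, P S → P T → P (S * T)
  star : ∀ T, P T → P (star T)
  smul : ∀ (c : ℂ) T, P T → P (c • T)

variable {E A B : Type} [NonUnitalCStarAlgebra E] [NonUnitalCStarAlgebra A]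
  [NonUnitalCStarAlgebra B]

theorem StarHomOn.map_sub {P : E → Prop} (hP : IsSub P) {i : E → A} (hi : StarHomOn P i)
    {S T : E} (hS : P S) (hT : P T) : i (S - T) = i S - i T := by
  have h1 : S - T = S + (-1 : ℂ) • T := by rw [neg_smul, one_smul, sub_eq_add_neg]
  rw [h1, (hi S _ hS (hP.smul _ T hT)).1, (hi T T hT hT).2.2.2, neg_smul, one_smul,
    sub_eq_add_neg]

theorem StarHomOn.map_zero {P : E → Prop} (hP : IsSub P) {i : E → A} (hi : StarHomOn P i) :
    i 0 = 0 := by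
  have h := (hi 0 0 hP.zero hP.zero).2.2.2 0
  rwa [zero_smul, zero_smul] at h

theorem IsSub.sub {P : E → Prop} (hP : IsSub P) {S T : E} (hS : P S) (hT : P T) :
    P (S - T) := by
  have h1 : S - T = S + (-1 : ℂ) • T := by rw [neg_smul, one_smul, sub_eq_add_neg]
  rw [h1]
  exact hP.add _ _ hS (hP.smul _ _ hT)

theorem exists_ext {P : E → Prop} (hP : IsSub P) {i : E → A} {j : E → B}
    (hi : StarHomOn P i) (hj : StarHomOn P j) (hd : Dense (i '' {T | P T}))
    (hle : ∀ T, P T → ‖j T‖ ≤ ‖i T‖) : ∃ φ : A →⋆ₙₐ[ℂ] B, ∀ T, P T → φ (i T) = j T := by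
  let g : E → A × B := fun T => (i T, j T)
  let G : Set (A × B) := closure (g '' {T | P T})
  have hmem : ∀ T, P T → (i T, j T) ∈ G := fun T hT => subset_closure ⟨T, hT, rfl⟩
  have hnorm : ∀ x ∈ G, ‖x.2‖ ≤ ‖x.1‖ := by
    have hc : IsClosed {x : A × B | ‖x.2‖ ≤ ‖x.1‖} :=
      isClosed_le continuous_snd.norm continuous_fst.norm
    intro x hx
    refine closure_minimal ?_ hc hx
    rintro _ ⟨T, hT, rfl⟩
    exact hle T hT
  have hadd : ∀ x ∈ G, ∀ y ∈ G, x + y ∈ G := by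
    intro x hx y hy
    refine map_mem_closure₂ continuous_add hx hy ?_
    rintro _ ⟨S, hS, rfl⟩ _ ⟨T, hT, rfl⟩
    exact ⟨S + T, hP.add S T hS hT, Prod.ext (hi S T hS hT).1 (hj S T hS hT).1⟩
  have hmul : ∀ x ∈ G, ∀ y ∈ G, x * y ∈ G := by
    intro x hx y hy
    refine map_mem_closure₂ continuous_mul hx hy ?_
    rintro _ ⟨S, hS, rfl⟩ _ ⟨T, hT, rfl⟩
    exact ⟨S * T, hP.mul S T hS hT, Prod.ext (hi S T hS hT).2.1 (hj S T hS hT).2.1⟩
  have hstar : ∀ x ∈ G, star x ∈ G := by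
    intro x hx
    refine map_mem_closure continuous_star hx ?_
    rintro _ ⟨T, hT, rfl⟩
    exact ⟨star T, hP.star T hT, Prod.ext (hi T T hT hT).2.2.1 (hj T T hT hT).2.2.1⟩
  have hsmul : ∀ (c : ℂ), ∀ x ∈ G, c • x ∈ G := by
    intro c x hx
    refine map_mem_closure (continuous_const_smul c) hx ?_
    rintro _ ⟨T, hT, rfl⟩
    exact ⟨c • T, hP.smul c T hT, Prod.ext ((hi T T hT hT).2.2.2 c) ((hj T T hT hT).2.2.2 c)⟩
  have hsub : ∀ x ∈ G, ∀ y ∈ G, x - y ∈ G := by
    intro x hx y hy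
    have h := hadd x hx _ (hsmul (-1) y hy)
    rwa [neg_smul, one_smul, ← sub_eq_add_neg] at h
  have huniq : ∀ a c c', (a, c) ∈ G → (a, c') ∈ G → c = c' := by
    intro a c c' h h'
    have h1 := hnorm _ (hsub _ h _ h')
    have h2 : ‖c - c'‖ ≤ ‖a - a‖ := h1
    rw [sub_self, norm_zero] at h2
    exact sub_eq_zero.1 (norm_le_zero_iff.1 h2)
  have hex : ∀ a, ∃ c, (a, c) ∈ G := by
    intro a
    obtain ⟨u, hu, hlim⟩ := mem_closure_iff_seq_limit.1 (hd a)
    choose T hT hTu using hu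
    have hcau : CauchySeq (fun n => j (T n)) := by
      refine Metric.cauchySeq_iff.2 (fun ε hε => ?_)
      obtain ⟨N, hN⟩ := Metric.cauchySeq_iff.1 hlim.cauchySeq ε hε
      refine ⟨N, fun m hm n hn => ?_⟩
      have h := hN m hm n hn
      rw [dist_eq_norm] at h ⊢
      refine lt_of_le_of_lt ?_ h
      rw [← hTu m, ← hTu n, ← StarHomOn.map_sub hP hi (hT m) (hT n),
        ← StarHomOn.map_sub hP hj (hT m) (hT n)]
      exact hle _ (hP.sub (hT m) (hT n))
    obtain ⟨c, hc⟩ := cauchySeq_tendsto_of_complete hcau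
    refine ⟨c, mem_closure_of_tendsto (hlim.prodMk_nhds hc) (Eventually.of_forall fun n => ?_)⟩
    exact ⟨T n, hT n, Prod.ext (hTu n) rfl⟩
  choose φ hφ using hex
  refine ⟨{
    toFun := φ
    map_smul' := ?_
    map_zero' := ?_
    map_add' := ?_
    map_mul' := ?_
    map_star' := ?_ }, ?_⟩
  · intro c a
    exact huniq _ _ _ (hφ (c • a)) (hsmul c _ (hφ a))
  · refine huniq 0 _ _ (hφ 0) ?_
    have h := hmem 0 hP.zero
    rwa [StarHomOn.map_zero hP hi, StarHomOn.map_zero hP hj] at h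
  · intro a b
    exact huniq _ _ _ (hφ (a + b)) (hadd _ (hφ a) _ (hφ b))
  · intro a b
    exact huniq _ _ _ (hφ (a * b)) (hmul _ (hφ a) _ (hφ b))
  · intro a
    exact huniq _ _ _ (hφ (star a)) (hstar _ (hφ a))
  · intro T hT
    exact huniq _ _ _ (hφ (i T)) (hmem T hT)

end Vale.Agent.P212.H35
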