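import Vale.Agent.P212.H35.Std
import Vale.Agent.P212.H35.Ext

/-! The localization system of an arbitrary C*-completion of `ℂ[X]` whose norm is at least the
operator norm. -/

set_option linter.unusedSectionVars false

namespace Vale.Agent.P212.H35

open NNReal Filter Topology BoundedContinuousFunction

section Basic

variable {A B : Type} [NonUnitalCStarAlgebra A] [NonUnitalCStarAlgebra B]

theorem cont_hom (φ : A →⋆ₙₐ[ℂ] B) : Continuous φ :=
  AddMonoidHomClass.continuous_of_bound φ 1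
    (fun x => by simpa using NonUnitalStarAlgHom.norm_apply_le φ x)

/-- Products of bounded uniformly continuous functions. -/
theorem uc_mul {f g : ℝ≥0 → A} (hf : UniformContinuous f) (hg : UniformContinuous g)
    {C D : ℝ} (hC : ∀ t, ‖f t‖ ≤ C) (hD : ∀ t, ‖g t‖ ≤ D) :
    UniformContinuous (fun t => f t * g t) := by
  have hC0 : 0 ≤ C := (norm_nonneg _).trans (hC 0)
  have hD0 : 0 ≤ D := (norm_nonneg _).trans (hD 0)
  rw [Metric.uniformContinuous_iff] at hf hg ⊢
  intro ε hε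
  have hM : 0 < C + D + 1 := by positivity
  obtain ⟨δ₁, hδ₁, h₁⟩ := hf (ε / (C + D + 1)) (div_pos hε hM)
  obtain ⟨δ₂, hδ₂, h₂⟩ := hg (ε / (C + D + 1)) (div_pos hε hM)
  refine ⟨min δ₁ δ₂, lt_min hδ₁ hδ₂, fun a b hab => ?_⟩
  have e₁ := h₁ (lt_of_lt_of_le hab (min_le_left _ _))
  have e₂ := h₂ (lt_of_lt_of_le hab (min_le_right _ _))
  rw [dist_eq_norm] at e₁ e₂ ⊢
  have key : f a * g a - f b * g b = f a * (g a - g b) + (f a - f b) * g b := by
    rw [mul_sub, sub_mul]
    abel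
  rw [key]
  calc ‖f a * (g a - g b) + (f a - f b) * g b‖
      ≤ ‖f a * (g a - g b)‖ + ‖(f a - f b) * g b‖ := norm_add_le _ _
    _ ≤ ‖f a‖ * ‖g a - g b‖ + ‖f a - f b‖ * ‖g b‖ :=
        add_le_add (norm_mul_le _ _) (norm_mul_le _ _)
    _ ≤ C * (ε / (C + D + 1)) + (ε / (C + D + 1)) * D := by
        gcongr
        · exact hC a
        · exact hD b
    _ = (C + D) * (ε / (C + D + 1)) := by ring
    _ < (C + D + 1) * (ε / (C + D + 1)) :=
        mul_lt_mul_of_pos_right (lt_add_one _) (div_pos hε hM)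
    _ = ε := by
        field_simp

end Basic

variable {X : Type} [MetricSpace X] [BddGeometry X] {A : Type} [NonUnitalCStarAlgebra A]

/-- `i : ℂ[X] → A` is a completion in a C*-norm which is at least the operator norm. -/
structure Cpl (i : BX X → A) : Prop where
  hom : StarHomOn (IsRoe (gX X)) i
  dense : Dense (i '' {T | IsRoe (gX X) T})
  le : ∀ T, IsRoe (gX X) T → ‖T‖ ≤ ‖i T‖

theorem isSub_roe : IsSub (E := BX X) (IsRoe (gX X)) where
  zero := IsRoe.zero
  add _ _ h h' := h.add h'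
  mul _ _ h h' := h.mul h'
  star _ h := h.star
  smul c _ h := h.smul c

section Rep

variable {i : BX X → A} (hi : Cpl i)

/-- The representation of the completion on `l^2(X x N)`. -/
theorem exists_rep (hi : Cpl i) :
    ∃ φ : A →⋆ₙₐ[ℂ] BX X, ∀ T, IsRoe (gX X) T → φ (i T) = T :=
  exists_ext isSub_roe hi.hom (j := fun T => T)
    (fun _ _ _ _ => ⟨rfl, rfl, rfl, fun _ => rfl⟩) hi.dense hi.le

noncomputable def rep : A →⋆ₙₐ[ℂ] BX X := (exists_rep hi).choose

theorem rep_apply {T : BX X} (hT : IsRoe (gX X) T) : rep hi (i T) = T :=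
  (exists_rep hi).choose_spec T hT

theorem norm_rep_le (a : A) : ‖rep hi a‖ ≤ ‖a‖ := NonUnitalStarAlgHom.norm_apply_le (rep hi) a

/-- The unital extension of the representation. -/
noncomputable def repU : Unitization ℂ A →⋆ₐ[ℂ] BX X := Unitization.starLift (rep hi)

theorem repU_apply (x : Unitization ℂ A) :
    repU hi x = algebraMap ℂ (BX X) x.fst + rep hi x.snd := rfl

end Rep

section Kap

variable [Nonempty X] {i : BX X → A} (hi : Cpl i)

/-- The homomorphism from the maximal Roe algebra. -/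
theorem exists_kap (hi : Cpl i) :
    ∃ φ : augI (gX X) →⋆ₙₐ[ℂ] A, ∀ T, IsRoe (gX X) T → φ (iotaF (gX X) T) = i T := by
  refine exists_ext isSub_roe (starHomOn_iotaF (gX X)) hi.hom ?_
    (fun T hT => boundedOn_iotaF (gX X) A i hi.hom T hT)
  rw [image_iotaF]
  exact (isMaxRoe_iotaI (gX X)).dense

noncomputable def kap0 : augI (gX X) →⋆ₙₐ[ℂ] A := (exists_kap hi).choose

theorem kap0_apply {T : BX X} (hT : IsRoe (gX X) T) : kap0 hi (iotaF (gX X) T) = i T :=
  (exists_kap hi).choose_spec T hT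

theorem rep_kap0 (a : augI (gX X)) : rep hi (kap0 hi a) = opC X (a : CM (gX X)) := by
  have h1 : Continuous (fun a : augI (gX X) => rep hi (kap0 hi a)) :=
    (cont_hom (rep hi)).comp (cont_hom (kap0 hi))
  have h2 : Continuous (fun a : augI (gX X) => opC X (a : CM (gX X))) :=
    (CM.continuous_lift _ _).comp continuous_subtype_val
  refine congrFun (DenseRange.equalizer (isMaxRoe_iotaI (gX X)).dense h1 h2 ?_) a
  funext T
  have h3 : iotaF (gX X) T.1 = iotaI (gX X) T := iotaF_eq (gX X) T.2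
  change rep hi (kap0 hi (iotaI (gX X) T)) = opC X ((iotaI (gX X) T : augI (gX X)) : CM (gX X))
  rw [← h3, kap0_apply hi T.2, rep_apply hi T.2, coe_iotaF T.2, opC_toMax]

/-- The homomorphism of the unitizations. -/
noncomputable def kapU : CM (gX X) →+* Unitization ℂ A :=
  (Unitization.starMap (kap0 hi) : Unitization ℂ (augI (gX X)) →+* Unitization ℂ A).comp
    ((cmEquiv (gX X)).symm : CM (gX X) →+* Unitization ℂ (augI (gX X)))

theorem kapU_apply (b : CM (gX X)) :
    kapU hi b = Unitization.starMap (kap0 hi) (cmUni (gX X) b) := rfl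

theorem fst_kapU (b : CM (gX X)) : (kapU hi b).fst = aug (gX X) b := by
  rw [kapU_apply, starMap_fst, cmUni_fst]

theorem repU_kapU (b : CM (gX X)) : repU hi (kapU hi b) = opC X b := by
  rw [repU_apply, fst_kapU, kapU_apply, starMap_snd, rep_kap0, cmUni_snd, map_sub,
    AlgHomClass.commutes, add_sub_cancel]

end Kap

section Paths

/-- Local paths with bounded and uniformly continuous image. -/
structure LPath (i : BX X → A) (r : ℝ) (T : ℝ≥0 → BX X) : Prop where
  loc : IsLocal r T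
  uc : UniformContinuous (fun t => i (T t))
  bdd : ∃ C, ∀ t, ‖i (T t)‖ ≤ C

/-- Uniform limits of local paths. -/
def Appr (i : BX X → A) (r : ℝ) (f : ℝ≥0 → A) : Prop :=
  ∀ ε > 0, ∃ T, LPath i r T ∧ ∀ t, ‖f t - i (T t)‖ ≤ ε

variable {i : BX X → A} {r : ℝ}

theorem isLoc_iff (F : ℝ≥0 → Unitization ℂ A) :
    IsLoc (stdB (X × ℕ)) i pC r F ↔ ∃ (c : ℂ) (f : ℝ≥0 → A),
      (∀ t, F t = Unitization.inl c + Unitization.inr (f t)) ∧ Appr i r f := by
  constructor
  · rintro ⟨c, f, hf, h⟩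
    refine ⟨c, f, hf, fun ε hε => ?_⟩
    obtain ⟨T, hT, hu, hb, he⟩ := h ε hε
    exact ⟨T, ⟨(isLocalC_iff r T).1 hT, hu, hb⟩, he⟩
  · rintro ⟨c, f, hf, h⟩
    refine ⟨c, f, hf, fun ε hε => ?_⟩
    obtain ⟨T, hT, he⟩ := h ε hε
    exact ⟨T, (isLocalC_iff r T).2 hT.loc, hT.uc, hT.bdd, he⟩

theorem Appr.bdd {f : ℝ≥0 → A} (hf : Appr i r f) : ∃ C, ∀ t, ‖f t‖ ≤ C := by
  obtain ⟨T, hT, h⟩ := hf 1 one_pos
  obtain ⟨C, hC⟩ := hT.bdd
  refine ⟨1 + C, fun t => ?_⟩
  have h1 : f t = (f t - i (T t)) + i (T t) := (sub_add_cancel _ _).symm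
  rw [h1]
  exact (norm_add_le _ _).trans (add_le_add (h t) (hC t))

variable (hi : Cpl i)
include hi

theorem LPath.add {T S : ℝ≥0 → BX X} (hT : LPath i r T) (hS : LPath i r S) :
    LPath i r (fun t => T t + S t) := by
  have h1 : ∀ t, i (T t + S t) = i (T t) + i (S t) := fun t =>
    (hi.hom _ _ (hT.loc.roe t) (hS.loc.roe t)).1
  obtain ⟨C, hC⟩ := hT.bdd
  obtain ⟨D, hD⟩ := hS.bdd
  refine ⟨hT.loc.add hS.loc, ?_, C + D, fun t => ?_⟩
  · simp only [h1]
    exact hT.uc.add hS.uc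
  · rw [h1]
    exact (norm_add_le _ _).trans (add_le_add (hC t) (hD t))

theorem LPath.mul {T S : ℝ≥0 → BX X} (hT : LPath i r T) (hS : LPath i r S) :
    LPath i r (fun t => T t * S t) := by
  have h1 : ∀ t, i (T t * S t) = i (T t) * i (S t) := fun t =>
    (hi.hom _ _ (hT.loc.roe t) (hS.loc.roe t)).2.1
  obtain ⟨C, hC⟩ := hT.bdd
  obtain ⟨D, hD⟩ := hS.bdd
  have hC0 : 0 ≤ C := (norm_nonneg _).trans (hC 0)
  refine ⟨hT.loc.mul hS.loc, ?_, C * D, fun t => ?_⟩
  · simp only [h1]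
    exact uc_mul hT.uc hS.uc hC hD
  · rw [h1]
    exact (norm_mul_le _ _).trans (mul_le_mul (hC t) (hD t) (norm_nonneg _) hC0)

theorem LPath.smul {T : ℝ≥0 → BX X} (c : ℂ) (hT : LPath i r T) :
    LPath i r (fun t => c • T t) := by
  have h1 : ∀ t, i (c • T t) = c • i (T t) := fun t =>
    (hi.hom _ _ (hT.loc.roe t) (hT.loc.roe t)).2.2.2 c
  obtain ⟨C, hC⟩ := hT.bdd
  refine ⟨hT.loc.smul c, ?_, ‖c‖ * C, fun t => ?_⟩
  · simp only [h1]
    exact hT.uc.const_smul c
  · rw [h1, norm_smul]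
    exact mul_le_mul_of_nonneg_left (hC t) (norm_nonneg _)

theorem LPath.star {T : ℝ≥0 → BX X} (hT : LPath i r T) :
    LPath i r (fun t => Star.star (T t)) := by
  have h1 : ∀ t, i (Star.star (T t)) = Star.star (i (T t)) := fun t =>
    (hi.hom _ _ (hT.loc.roe t) (hT.loc.roe t)).2.2.1
  obtain ⟨C, hC⟩ := hT.bdd
  refine ⟨hT.loc.star, ?_, C, fun t => ?_⟩
  · simp only [h1]
    have h2 : UniformContinuous (fun a : A => Star.star a) := by
      refine (AddMonoidHomClass.isometry_of_norm (starAddEquiv : A ≃+ A) ?_).uniformContinuous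
      intro a
      exact norm_star a
    exact h2.comp hT.uc
  · rw [h1, norm_star]
    exact hC t

omit hi in
theorem Appr.mono {r' : ℝ} (h : r ≤ r') {f : ℝ≥0 → A} (hf : Appr i r f) : Appr i r' f := by
  intro ε hε
  obtain ⟨T, hT, h1⟩ := hf ε hε
  exact ⟨T, ⟨hT.loc.mono h, hT.uc, hT.bdd⟩, h1⟩

theorem Appr.zero : Appr i r (fun _ => 0) := by
  have h0 : i 0 = 0 := StarHomOn.map_zero isSub_roe hi.hom
  intro ε hε
  refine ⟨fun _ => 0, ⟨IsLocal.zero r, ?_, 0, fun t => ?_⟩, fun t => ?_⟩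
  · exact uniformContinuous_const
  · rw [h0, norm_zero]
  · rw [h0, sub_zero, norm_zero]
    exact hε.le

theorem Appr.add {f g : ℝ≥0 → A} (hf : Appr i r f) (hg : Appr i r g) :
    Appr i r (fun t => f t + g t) := by
  intro ε hε
  obtain ⟨T, hT, h1⟩ := hf (ε / 2) (half_pos hε)
  obtain ⟨S, hS, h2⟩ := hg (ε / 2) (half_pos hε)
  refine ⟨_, LPath.add hi hT hS, fun t => ?_⟩
  rw [(hi.hom _ _ (hT.loc.roe t) (hS.loc.roe t)).1, add_sub_add_comm]
  calc _ ≤ _ := norm_add_le _ _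
    _ ≤ ε / 2 + ε / 2 := add_le_add (h1 t) (h2 t)
    _ = ε := add_halves ε

theorem Appr.smul {f : ℝ≥0 → A} (c : ℂ) (hf : Appr i r f) :
    Appr i r (fun t => c • f t) := by
  intro ε hε
  obtain ⟨T, hT, h1⟩ := hf (ε / (‖c‖ + 1)) (by positivity)
  refine ⟨_, LPath.smul hi c hT, fun t => ?_⟩
  rw [(hi.hom _ _ (hT.loc.roe t) (hT.loc.roe t)).2.2.2 c, ← smul_sub, norm_smul]
  calc ‖c‖ * ‖f t - i (T t)‖ ≤ (‖c‖ + 1) * (ε / (‖c‖ + 1)) := by
        gcongr
        · linarith
        · exact h1 t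
    _ = ε := by field_simp

theorem Appr.star {f : ℝ≥0 → A} (hf : Appr i r f) :
    Appr i r (fun t => Star.star (f t)) := by
  intro ε hε
  obtain ⟨T, hT, h1⟩ := hf ε hε
  refine ⟨_, LPath.star hi hT, fun t => ?_⟩
  rw [(hi.hom _ _ (hT.loc.roe t) (hT.loc.roe t)).2.2.1, ← star_sub, norm_star]
  exact h1 t

theorem Appr.mul {f g : ℝ≥0 → A} (hf : Appr i r f) (hg : Appr i r g) :
    Appr i r (fun t => f t * g t) := by
  intro ε hε
  obtain ⟨C, hC⟩ := hf.bdd
  obtain ⟨D, hD⟩ := hg.bdd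
  have hC0 : 0 ≤ C := (norm_nonneg _).trans (hC 0)
  have hD0 : 0 ≤ D := (norm_nonneg _).trans (hD 0)
  have hη : 0 < min 1 (ε / (C + D + 1)) := lt_min one_pos (by positivity)
  obtain ⟨T, hT, h1⟩ := hf _ hη
  obtain ⟨S, hS, h2⟩ := hg _ hη
  refine ⟨_, LPath.mul hi hT hS, fun t => ?_⟩
  rw [(hi.hom _ _ (hT.loc.roe t) (hS.loc.roe t)).2.1]
  have key : f t * g t - i (T t) * i (S t) =
      f t * (g t - i (S t)) + (f t - i (T t)) * i (S t) := by
    rw [mul_sub, sub_mul]
    abel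
  have h3 : ‖i (S t)‖ ≤ D + 1 := by
    have e : i (S t) = g t - (g t - i (S t)) := (sub_sub_cancel _ _).symm
    rw [e]
    exact (norm_sub_le _ _).trans (add_le_add (hD t) ((h2 t).trans (min_le_left _ _)))
  rw [key]
  calc ‖f t * (g t - i (S t)) + (f t - i (T t)) * i (S t)‖
      ≤ ‖f t‖ * ‖g t - i (S t)‖ + ‖f t - i (T t)‖ * ‖i (S t)‖ :=
        (norm_add_le _ _).trans (add_le_add (norm_mul_le _ _) (norm_mul_le _ _))
    _ ≤ C * (ε / (C + D + 1)) + (ε / (C + D + 1)) * (D + 1) := by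
        gcongr
        · exact hC t
        · exact (h2 t).trans (min_le_right _ _)
        · exact (h1 t).trans (min_le_right _ _)
    _ = (C + D + 1) * (ε / (C + D + 1)) := by ring
    _ = ε := by field_simp

end Paths

section LA

variable {i : BX X → A} (hi : Cpl i)

/-- The localization algebra of the completion, with a unit adjoined, at scale `r`. -/
noncomputable def LA (r : ℝ) : StarSubalgebra ℂ (ℝ≥0 → Unitization ℂ A) where
  carrier := {F | IsLoc (stdB (X × ℕ)) i pC r F}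
  mul_mem' := by
    intro F G hF hG
    obtain ⟨c, f, hf, h1⟩ := (isLoc_iff F).1 hF
    obtain ⟨d, g, hg, h2⟩ := (isLoc_iff G).1 hG
    refine (isLoc_iff _).2 ⟨c * d, fun t => (c • g t + d • f t) + f t * g t, fun t => ?_,
      Appr.add hi (Appr.add hi (Appr.smul hi c h2) (Appr.smul hi d h1)) (Appr.mul hi h1 h2)⟩
    rw [Pi.mul_apply, hf, hg]
    apply Unitization.ext
    · simp
    · simp [Unitization.snd_mul]
  add_mem' := by
    intro F G hF hG
    obtain ⟨c, f, hf, h1⟩ := (isLoc_iff F).1 hF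
    obtain ⟨d, g, hg, h2⟩ := (isLoc_iff G).1 hG
    refine (isLoc_iff _).2 ⟨c + d, fun t => f t + g t, fun t => ?_, Appr.add hi h1 h2⟩
    rw [Pi.add_apply, hf, hg]
    apply Unitization.ext
    · simp
    · simp
  algebraMap_mem' := by
    intro c
    refine (isLoc_iff _).2 ⟨c, fun _ => 0, fun t => ?_, Appr.zero hi⟩
    rw [Pi.algebraMap_apply, Unitization.algebraMap_eq_inl, Unitization.inr_zero, add_zero]
  star_mem' := by
    intro F hF
    obtain ⟨c, f, hf, h1⟩ := (isLoc_iff F).1 hF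
    refine (isLoc_iff _).2 ⟨star c, fun t => star (f t), fun t => ?_, Appr.star hi h1⟩
    rw [Pi.star_apply, hf]
    apply Unitization.ext
    · simp
    · simp

theorem mem_LA {r : ℝ} {F : ℝ≥0 → Unitization ℂ A} :
    F ∈ LA hi r ↔ IsLoc (stdB (X × ℕ)) i pC r F := Iff.rfl

/-- Evaluation in the representation on `l^2(X x N)`. -/
noncomputable def evA (r : ℝ) (t : ℝ≥0) : LA hi r →⋆ₐ[ℂ] BX X where
  toFun F := repU hi ((F : ℝ≥0 → Unitization ℂ A) t)
  map_one' := map_one _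
  map_mul' _ _ := map_mul _ _ _
  map_zero' := map_zero _
  map_add' _ _ := map_add _ _ _
  commutes' c := (repU hi).commutes c
  map_star' _ := map_star _ _

theorem evA_apply (r : ℝ) (t : ℝ≥0) (F : LA hi r) :
    evA hi r t F = repU hi ((F : ℝ≥0 → Unitization ℂ A) t) := rfl

/-- The augmentation. -/
noncomputable def augA (r : ℝ) : LA hi r →⋆ₐ[ℂ] ℂ where
  toFun F := ((F : ℝ≥0 → Unitization ℂ A) 0).fst
  map_one' := Unitization.fst_one
  map_mul' _ _ := Unitization.fst_mul _ _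
  map_zero' := Unitization.fst_zero
  map_add' _ _ := Unitization.fst_add _ _
  commutes' c := by
    change (algebraMap ℂ (Unitization ℂ A) c).fst = c
    rw [Unitization.algebraMap_eq_inl, Unitization.fst_inl]
  map_star' _ := Unitization.fst_star _

theorem augA_apply (r : ℝ) (F : LA hi r) :
    augA hi r F = ((F : ℝ≥0 → Unitization ℂ A) 0).fst := rfl

/-- Every element is approximated, uniformly in time, by the sum of a scalar and a local
path. -/
theorem exists_approx_LA (r : ℝ) (F : LA hi r) {ε : ℝ} (hε : 0 < ε) :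
    ∃ S : ℝ≥0 → BX X, IsLocal r S ∧ ∀ t,
      ‖(evA hi r t F - augA hi r F • (1 : BX X)) - S t‖ ≤ ε := by
  obtain ⟨c, f, hf, h⟩ := (isLoc_iff _).1 F.2
  obtain ⟨T, hT, hfT⟩ := h ε hε
  refine ⟨T, hT.loc, fun t => ?_⟩
  have h1 : augA hi r F = c := by
    rw [augA_apply, hf 0]
    simp
  have h2 : evA hi r t F - c • (1 : BX X) = rep hi (f t) := by
    rw [evA_apply, repU_apply, hf t]
    simp [Algebra.algebraMap_eq_smul_one]
  rw [h1, h2, ← rep_apply hi (hT.loc.roe t), ← map_sub]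
  exact (norm_rep_le hi _).trans (hfT t)

theorem bdd_LA (r : ℝ) (F : LA hi r) : ∃ C : ℝ, ∀ t, ‖evA hi r t F‖ ≤ C := by
  obtain ⟨c, f, hf, h⟩ := (isLoc_iff _).1 F.2
  obtain ⟨C, hC⟩ := h.bdd
  refine ⟨‖c‖ + C, fun t => ?_⟩
  have h2 : evA hi r t F = c • (1 : BX X) + rep hi (f t) := by
    rw [evA_apply, repU_apply, hf t]
    simp [Algebra.algebraMap_eq_smul_one]
  rw [h2]
  refine (norm_add_le _ _).trans (add_le_add ?_ ((norm_rep_le hi _).trans (hC t)))
  rw [norm_smul]
  exact (mul_le_mul_of_nonneg_left isLocal_bdd_norm_one_le (norm_nonneg _)).trans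
    (mul_one _).le

omit hi in
/-- The commutators of a path which is approximated by local paths with cylinder functions. -/
theorem tendsto_comm_gen (r : ℝ) (E : ℝ≥0 → BX X) (a : ℂ) {C₀ : ℝ} (hC₀ : ∀ t, ‖E t‖ ≤ C₀)
    (happ : ∀ ε > 0, ∃ S : ℝ≥0 → BX X, IsLocal r S ∧ ∀ t, ‖(E t - a • (1 : BX X)) - S t‖ ≤ ε)
    (g : RPt X → ℂ) (hg : Cyl g) :
    Tendsto (fun t => ‖E t * mulG g - mulG g * E t‖) atTop (𝓝 0) := by
  have hC₀0 : 0 ≤ C₀ := (norm_nonneg _).trans (hC₀ 0)
  rw [Metric.tendsto_atTop]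
  intro η hη
  obtain ⟨Cg, hCg⟩ := hg.bdd
  set M : BX X := mulG g with hM
  have hM0 : 0 ≤ ‖M‖ := norm_nonneg M
  obtain ⟨S, hS, hSf⟩ := happ (η / (8 * (‖M‖ + 1))) (by positivity)
  set C : ℝ := C₀ + ‖a‖ + η / (8 * (‖M‖ + 1)) with hC
  have hC0 : 0 ≤ C := by positivity
  have hSC : ∀ t, ‖S t‖ ≤ C := by
    intro t
    have h1 : S t = (E t - a • (1 : BX X)) - ((E t - a • (1 : BX X)) - S t) :=
      (sub_sub_cancel _ _).symm
    have h2 : ‖E t‖ ≤ C₀ := hC₀ t
    have h3 : ‖a • (1 : BX X)‖ ≤ ‖a‖ := by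
      rw [norm_smul]
      exact (mul_le_mul_of_nonneg_left isLocal_bdd_norm_one_le (norm_nonneg _)).trans
        (mul_one _).le
    rw [h1]
    refine (norm_sub_le _ _).trans ?_
    have h4 := hSf t
    have h5 := norm_sub_le (E t) (a • (1 : BX X))
    rw [hC]
    linarith
  obtain ⟨δ, hδ, hunif⟩ := hg.unif (ε := η / (64 * (C + 1))) (by positivity)
  obtain ⟨t₀, ht₀⟩ := hS.prop δ hδ
  refine ⟨t₀, fun t ht => ?_⟩
  have hω : 0 ≤ η / (64 * (C + 1)) := by positivity
  have h1 : ‖S t * M - M * S t‖ ≤ 16 * (η / (64 * (C + 1))) * ‖S t‖ := by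
    refine norm_comm_le (C := Cg) (fun j => hCg (pos j)) hω (fun j k hjk => ?_)
    exact hunif _ _ (ht₀ t ht j k hjk).2.2
  have h2 : 16 * (η / (64 * (C + 1))) * ‖S t‖ ≤ η / 4 := by
    have h3 : ‖S t‖ ≤ C + 1 := (hSC t).trans (by linarith)
    calc 16 * (η / (64 * (C + 1))) * ‖S t‖ ≤ 16 * (η / (64 * (C + 1))) * (C + 1) := by gcongr
      _ = η / 4 := by
        field_simp
        norm_num
  set A' : BX X := E t with hA
  have h4 : A' * M - M * A' = ((A' - a • 1) - S t) * M - M * ((A' - a • 1) - S t) +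
      (S t * M - M * S t) := by
    simp only [sub_mul, mul_sub, smul_mul_assoc, mul_smul_comm, one_mul, mul_one]
    abel
  have h5 : ‖((A' - a • 1) - S t) * M - M * ((A' - a • 1) - S t)‖ ≤ η / 4 := by
    have h6 := hSf t
    have h7 : ‖((A' - a • 1) - S t) * M‖ ≤ η / 8 := by
      calc ‖((A' - a • 1) - S t) * M‖ ≤ ‖(A' - a • 1) - S t‖ * ‖M‖ := norm_mul_le _ _
        _ ≤ η / (8 * (‖M‖ + 1)) * (‖M‖ + 1) := by
          gcongr
          linarith only []
        _ = η / 8 := by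
          field_simp
    have h8 : ‖M * ((A' - a • 1) - S t)‖ ≤ η / 8 := by
      calc ‖M * ((A' - a • 1) - S t)‖ ≤ ‖M‖ * ‖(A' - a • 1) - S t‖ := norm_mul_le _ _
        _ ≤ (‖M‖ + 1) * (η / (8 * (‖M‖ + 1))) := by
          gcongr
          linarith only []
        _ = η / 8 := by
          field_simp
    refine (norm_sub_le _ _).trans ?_
    linarith only [h8, h7]
  have h9 : ‖A' * M - M * A'‖ < η := by
    rw [h4]
    refine (norm_add_le _ _).trans_lt ?_
    linarith only [h5, h2, h1, hη]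
  rw [dist_zero_right, norm_norm]
  exact h9

/-- The localization system of the completion. -/
noncomputable def sysA (r : ℝ) : LocSys X r (LA hi r) where
  ev t := evA hi r t
  aug := augA hi r
  bdd F := bdd_LA hi r F
  comm F g hg := by
    obtain ⟨C, hC⟩ := bdd_LA hi r F
    exact tendsto_comm_gen r (fun t => evA hi r t F) (augA hi r F) hC
      (fun ε hε => exists_approx_LA hi r F hε) g hg
  cpt := by
    intro f t B
    have h1 : IsClosed {T : BX X | IsCompactOperator T} := isClosed_setOfPred_isCompactOperator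
    refine h1.closure_subset_iff.2 le_rfl (Metric.mem_closure_iff.2 (fun ε hε => ?_))
    obtain ⟨S, hS, hSf⟩ := exists_approx_LA hi r f (half_pos hε)
    refine ⟨proj (gX X ⁻¹' (B : Set X)) * S t, (hS.roe t).isCompactOperator_proj_mul B, ?_⟩
    rw [dist_eq_norm, ← mul_sub]
    refine (norm_mul_le _ _).trans_lt ?_
    calc _ ≤ 1 * (ε / 2) := by
          gcongr
          · exact proj_norm_le _
          · exact hSf t
      _ < ε := by linarith
  rips := by
    intro f t j k hjk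
    by_contra hn
    refine hjk (norm_le_zero_iff.1 (le_of_forall_pos_le_add (fun ε hε => ?_)))
    obtain ⟨S, hS, hSf⟩ := exists_approx_LA hi r f hε
    rw [zero_add]
    refine norm_ent_le_of_norm_sub_le (hSf t) ?_
    by_contra hne
    have h2 := hS.rips t j k hne
    exact hn ⟨h2.1, h2.2.1⟩

theorem sysA_ev (r : ℝ) (t : ℝ≥0) (F : LA hi r) :
    (sysA hi r).ev t F = repU hi ((F : ℝ≥0 → Unitization ℂ A) t) := rfl

theorem sysA_aug (r : ℝ) (F : LA hi r) :
    (sysA hi r).aug F = ((F : ℝ≥0 → Unitization ℂ A) 0).fst := rfl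

end LA

section Eta

variable [Nonempty X] {i : BX X → A} (hi : Cpl i)

/-- The path of the maximal localization algebra in the localization algebra of `A`. -/
theorem isLoc_kapU (r : ℝ) (F : locU X r) :
    IsLoc (stdB (X × ℕ)) i pC r (fun t => kapU hi ((F : ℝ≥0 →ᵇ CM (gX X)) t)) := by
  obtain ⟨c, f, hf, h⟩ := isLoc_Jr r F
  refine ⟨c, fun t => kap0 hi (f t), fun t => ?_, fun ε hε => ?_⟩
  · change Unitization.starMap (kap0 hi) (Jr X r F t) = _
    rw [hf t]
    apply Unitization.ext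
    · rw [starMap_fst]
      simp
    · rw [starMap_snd]
      simp
  · obtain ⟨T, hT, hu, ⟨C, hC⟩, he⟩ := h ε hε
    have hT' := (isLocalC_iff r T).1 hT
    have h1 : ∀ t, i (T t) = kap0 hi (iotaF (gX X) (T t)) := fun t =>
      (kap0_apply hi (hT'.roe t)).symm
    have hL : LipschitzWith 1 (kap0 hi) :=
      AddMonoidHomClass.lipschitz_of_bound_nnnorm (kap0 hi) 1
        (fun x => by simpa using NonUnitalStarAlgHom.nnnorm_apply_le (kap0 hi) x)
    refine ⟨T, hT, ?_, ⟨C, fun t => ?_⟩, fun t => ?_⟩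
    · simp only [h1]
      exact hL.uniformContinuous.comp hu
    · rw [h1]
      exact (NonUnitalStarAlgHom.norm_apply_le (kap0 hi) _).trans (hC t)
    · rw [h1, ← map_sub]
      exact (NonUnitalStarAlgHom.norm_apply_le (kap0 hi) _).trans (he t)

/-- The homomorphism of the localization algebras. -/
noncomputable def eta (r : ℝ) : locU X r →+* LA hi r where
  toFun F := ⟨fun t => kapU hi ((F : ℝ≥0 →ᵇ CM (gX X)) t), isLoc_kapU hi r F⟩
  map_one' := Subtype.ext (funext fun _ => map_one (kapU hi))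
  map_mul' _ _ := Subtype.ext (funext fun _ => map_mul (kapU hi) _ _)
  map_zero' := Subtype.ext (funext fun _ => map_zero (kapU hi))
  map_add' _ _ := Subtype.ext (funext fun _ => map_add (kapU hi) _ _)

theorem eta_apply (r : ℝ) (F : locU X r) (t : ℝ≥0) :
    (eta hi r F : ℝ≥0 → Unitization ℂ A) t = kapU hi ((F : ℝ≥0 →ᵇ CM (gX X)) t) := rfl

theorem sysA_ev_eta (r : ℝ) (t : ℝ≥0) (F : locU X r) :
    (sysA hi r).ev t (eta hi r F) = (locSys X r).ev t F := by
  rw [sysA_ev, eta_apply, repU_kapU, locSys_ev]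

theorem sysA_aug_eta (r : ℝ) (F : locU X r) :
    (sysA hi r).aug (eta hi r F) = (locSys X r).aug F := by
  rw [sysA_aug, eta_apply, fst_kapU]
  rfl

theorem LA_mono {r r' : ℝ} (h : r ≤ r') : LA hi r ≤ LA hi r' := by
  intro F hF
  obtain ⟨c, f, hf, h1⟩ := (isLoc_iff F).1 hF
  exact (isLoc_iff F).2 ⟨c, f, hf, h1.mono h⟩

end Eta

end Vale.Agent.P212.H35
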