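import Vale.Agent.P212.H35.Gen

/-! The Bott class has infinite order for every completion: failure of rational injectivity for
all completions, Hilbert bases and placements. -/

set_option linter.unusedSectionVars false

namespace Vale.Agent.P212.H35

open Matrix NNReal BoundedContinuousFunction
open scoped Matrix.Norms.L2Operator Kronecker

theorem map_bott_cls {R S : Type} [Ring R] [Ring S] (φ : R →+* S)
    {E : Matrix (Fin 2) (Fin 2) R} (hE : E * E = E) {E' : Matrix (Fin 2) (Fin 2) S}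
    (hE' : E' * E' = E') (h : E.map φ = E') :
    K0.map φ (K0.cls E hE - K0.cls (e11 R) (e11_idem R)) =
      K0.cls E' hE' - K0.cls (e11 S) (e11_idem S) := by
  subst h
  rw [map_sub, K0.map_cls, K0.map_cls, K0.cls_congr _ (e11_map φ)]

section Cls

variable {τ : Tower} {A : Type} [NonUnitalCStarAlgebra A] {i : BX (XT τ) → A} (hi : Cpl i)

/-- The Bott projection over the localization algebra of the completion. -/
noncomputable def EA (r : ℝ) (hr : 2 ≤ r) : Matrix (Fin 2) (Fin 2) (LA hi r) :=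
  (EL τ r hr).map (eta hi r)

theorem EA_idem (r : ℝ) (hr : 2 ≤ r) : EA hi r hr * EA hi r hr = EA hi r hr := by
  rw [EA, ← Matrix.map_mul, EL_idem]

theorem EA_aug (r : ℝ) (hr : 2 ≤ r) : (EA hi r hr).map (augA hi r) = e11 ℂ := by
  rw [← EL_aug τ r hr]
  ext a b
  exact sysA_aug_eta hi r _

/-- The inclusion of the localization algebras. -/
noncomputable def inclA {r r' : ℝ} (h : r ≤ r') : LA hi r →+* LA hi r' where
  toFun F := ⟨F.1, LA_mono hi h F.2⟩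
  map_one' := rfl
  map_mul' _ _ := rfl
  map_zero' := rfl
  map_add' _ _ := rfl

theorem EA_incl {r r' : ℝ} (hr : 2 ≤ r) (h : r ≤ r') :
    (EA hi r hr).map (inclA hi h) = EA hi r' (hr.trans h) := by
  refine Matrix.ext fun a b => Subtype.ext (funext fun t => ?_)
  change kapU hi ((EL τ r hr a b : ℝ≥0 →ᵇ CM (gX (XT τ))) t) =
    kapU hi ((EL τ r' (hr.trans h) a b : ℝ≥0 →ᵇ CM (gX (XT τ))) t)
  rw [EL_spec, EL_spec]

/-- The class at scale `r`. -/
noncomputable def yA (r : ℝ) (hr : 2 ≤ r) : K0 (LA hi r) :=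
  K0.cls (EA hi r hr) (EA_idem hi r hr) - K0.cls (e11 (LA hi r)) (e11_idem _)

theorem yA_map {r r' : ℝ} (hr : 2 ≤ r) (h : r ≤ r') :
    K0.map (inclA hi h) (yA hi r hr) = yA hi r' (hr.trans h) :=
  map_bott_cls (inclA hi h) (EA_idem hi r hr) (EA_idem hi r' (hr.trans h))
    (EA_incl hi hr h)

variable [DecidableEq (XT τ)]

/-- The finite matrices given by a torsion relation. -/
theorem torsion_dataA (r : ℝ) (hr : 2 ≤ r) (N : ℕ) (h : N • yA hi r hr = 0) :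
    ∃ (k : ℕ) (C : ℝ), ∀ B₁ B₂ : Finset (XT τ), (∀ x ∈ B₁, ∀ y, dist x y ≤ r → y ∈ B₂) →
      ∀ 𝓖 : Finset (RPt (XT τ) → ℂ), (∀ g ∈ 𝓖, Cyl g) → ∀ δ > 0, ∃ t₀ : ℝ≥0, ∀ m : ℕ,
      t₀ ≤ m → ∃ F₀ : Finset (XT τ × ℕ), (∀ j ∈ F₀, GoodB r B₂ j) ∧
      ∀ F : Finset (XT τ × ℕ), F₀ ⊆ F → (∀ j ∈ F, GoodB r B₂ j) →
      ∃ U U' : Matrix (F × Ix2 N k) (F × Ix2 N k) ℂ, U * U' = 1 ∧ U' * U = 1 ∧
        ‖U‖ ≤ C ∧ ‖U'‖ ≤ C ∧
        (∀ g ∈ 𝓖, ‖U * dg F g - dg F g * U‖ ≤ δ ∧ ‖U' * dg F g - dg F g * U'‖ ≤ δ) ∧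
        (∀ g ∈ 𝓖, (∀ p, InRips r p → g p ≠ 0 → p.1.support ⊆ B₁) →
          ‖(U * fhat τ N k F * U' - ehat τ r hr N k m F) * dg F g‖ ≤ δ) := by
  obtain ⟨k, G, G', h1, h2, h3, h4, h5⟩ := extract
    ((augA hi r : LA hi r →⋆ₐ[ℂ] ℂ) : LA hi r →ₐ[ℂ] ℂ)
    (EA_idem hi r hr) (EA_aug hi r hr) N h
  obtain ⟨C, hC⟩ := fin_cut (sysA hi r) G G' (stab N k (EA hi r hr)) (stab N k (e11 ℂ))
    h1 h2 h3 h4 (stab_idem N k (e11_idem ℂ)) (by rw [h5, stab_map_algebraMap])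
  refine ⟨k, C, fun B₁ B₂ hB 𝓖 h𝓖 δ hδ => ?_⟩
  obtain ⟨t₀, ht₀⟩ := hC B₁ B₂ hB 𝓖 h𝓖 δ hδ
  refine ⟨t₀, fun m hm => ?_⟩
  have e : (stab N k (EA hi r hr)).map ((sysA hi r).ev m) =
      (stab N k (EL τ r hr)).map ((locSys (XT τ) r).ev m) := by
    have e1 := stab_map ((sysA hi r).ev m : LA hi r →+* BX (XT τ)) N k (EA hi r hr)
    have e2 := bei_map τ r hr N k m
    have e3 : (EA hi r hr).map ((sysA hi r).ev m : LA hi r →+* BX (XT τ)) =
        (EL τ r hr).map ((locSys (XT τ) r).ev m) := by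
      ext1 a b
      exact sysA_ev_eta hi r m _
    rw [e3] at e1
    rw [e2]
    exact e1
  have h6 := ht₀ m hm
  rw [e] at h6
  exact h6

/-- The class at a natural scale has infinite order. -/
theorem yA_nat (r : ℕ) (hr : (2 : ℝ) ≤ r) (N : ℕ) (hN : 1 ≤ N) : N • yA hi r hr ≠ 0 := by
  classical
  intro h0
  obtain ⟨k, C, hC⟩ := torsion_dataA hi r hr N h0
  obtain ⟨sgn, hsgn, htor⟩ := rk_torus
  obtain ⟨D, χ, hχ⟩ := exists_colouring (X := XT τ) (r : ℝ)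
  obtain ⟨n₁, hn₁⟩ := exists_div τ r
  set n : ℕ := n₁ + 16 + 4 * r + N + 1 with hn
  obtain ⟨b, c, hbc⟩ := hn₁ n (by omega)
  have hn16 : 16 ≤ n := by omega
  have hD : 1 ≤ D := by
    have h := (χ (vtx τ 0 0 0)).pos
    omega
  set BI := lowF τ n (2 * n + 2 * r + 1) with hBI
  set B1 := lowF τ n (2 * n + 2 * r + 1 + r) with hB1
  set B2 := lowF τ n (2 * n + 2 * r + 1 + r + r) with hB2
  have hkos := fun i => koszul B2 c D χ i
  choose KM hKMc hKM using hkos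
  obtain ⟨δ, hδ, hcore⟩ := finite_core C
    (Fintype.card B2 + Fintype.card (Σ _ : Ev D, B2) + Fintype.card (Σ _ : Od D, B2))
  obtain ⟨𝓖, h𝓖, hφ, hQ, hM, hQc, hK⟩ := exists_big_family BI B2 D (11 ^ n) (c0 n) c b KM hKMc
  obtain ⟨t₀, ht₀⟩ := hC B1 B2 (fun x hx y hd => lowF_close (by omega) hx hd) 𝓖 h𝓖 δ hδ
  have hB2z : ∀ x : XT τ, x.n = n → x.l = 0 → x ∈ B2 := by
    intro x h1 h2
    rw [hB2, mem_lowF]
    exact ⟨h1, by omega⟩
  have hm := fun j : ℕ => htor τ n hn16 B2 hB2z j (1 / 16) (by norm_num)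
  choose m₀ hm₀ using hm
  obtain ⟨m, hm1, hm2⟩ : ∃ m : ℕ, t₀ ≤ m ∧ ∀ j ≤ D, m₀ j ≤ m := by
    obtain ⟨m1, hm1⟩ := exists_nat_ge t₀
    refine ⟨m1 + ∑ j ∈ Finset.range (D + 1), m₀ j, ?_, ?_⟩
    · refine hm1.trans ?_
      exact_mod_cast Nat.le_add_right _ _
    · intro j hj
      refine (Finset.single_le_sum (f := m₀) (fun _ _ => Nat.zero_le _)
        (Finset.mem_range.2 (by omega))).trans (Nat.le_add_left _ _)
  obtain ⟨F₀, hF₀, hF⟩ := ht₀ m hm1
  set F : Finset (XT τ × ℕ) := F₀ ∪ Finset.univ.image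
    (fun g : Grid (sd n m) => ji τ m ⟨⟨n, by omega⟩, g⟩) with hFdef
  have hFg : ∀ j ∈ F, GoodB r B2 j := by
    intro j hj
    rw [hFdef, Finset.mem_union, Finset.mem_image] at hj
    rcases hj with hj | ⟨g, _, rfl⟩
    · exact hF₀ j hj
    · exact goodB_grid r n m _ hr (by omega) (by omega) g
  obtain ⟨U, U', hUU, hUU', hU, hU', hc1, hc2⟩ := hF F Finset.subset_union_left hFg
  have hdvd : ((11 ^ n : ℕ) : ℤ) ∣ N * sgn := by
    refine hcore τ r n N k m D hr (by omega) hn16 hD sgn χ hχ b c hbc BI B1 B2 hBI hB1 hB2 KM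
      hKM (by omega) (by omega) (by omega) 𝓖 hφ hQ hM hQc hK F hFg ?_
      (fun j hj => (hm₀ j m (hm2 j hj)).1) (fun j hj => (hm₀ j m (hm2 j hj)).2) U U' hUU hUU'
      hU hU' hc1 hc2
    intro g
    exact Finset.mem_union_right _ (Finset.mem_image_of_mem _ (Finset.mem_univ g))
  have hdvd' : (11 ^ n : ℕ) ∣ N := by
    have h1 : ((11 ^ n : ℕ) : ℤ) ∣ N := by
      rcases hsgn with h | h
      · rw [h, mul_one] at hdvd
        exact hdvd
      · rw [h, mul_neg, mul_one, dvd_neg] at hdvd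
        exact hdvd
    exact_mod_cast h1
  have h1 := Nat.le_of_dvd (by omega) hdvd'
  have h2 : n < 11 ^ n := Nat.lt_pow_self (by norm_num)
  omega

omit [DecidableEq (XT τ)] in
theorem yA_not_torsion (r : ℝ) (hr : 2 ≤ r) (N : ℕ) (hN : 1 ≤ N) : N • yA hi r hr ≠ 0 := by
  classical
  intro h
  have h1 : r ≤ ((⌈r⌉₊ : ℕ) : ℝ) := Nat.le_ceil r
  have h2 : (2 : ℝ) ≤ ((⌈r⌉₊ : ℕ) : ℝ) := hr.trans h1
  apply yA_nat hi ⌈r⌉₊ h2 N hN
  rw [← yA_map hi hr h1, ← map_nsmul, h, map_zero]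

end Cls

section Main

variable (τ : Tower) {A : Type} [NonUnitalCStarAlgebra A] {i : BX (XT τ) → A} (hi : Cpl i)

theorem not_ratInjective_std (hi : Cpl i) :
    ¬ RatInjective (stdB (XT τ × ℕ)) i pC := by
  intro hinj
  have h2 : (2 : ℝ) ≤ 2 := le_rfl
  -- the two matrices of functions
  let V : (r : ℝ) → LA hi r →+* (ℝ≥0 → Unitization ℂ A) := fun r =>
    ((LA hi r).subtype : LA hi r →+* (ℝ≥0 → Unitization ℂ A))
  have hV : ∀ r, Function.Injective (V r) := fun r => Subtype.val_injective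
  have hev : SameK (fun _ => True) (((EA hi 2 h2).map (V 2)).map (fun F => F 0))
      (((e11 (LA hi 2)).map (V 2)).map (fun F => F 0)) := by
    have h3 : ((EA hi 2 h2).map (V 2)).map (fun F => F 0) =
        (bottE (Upath τ 0) (Vpath τ 0)).map (kapU hi) := by
      apply Matrix.ext
      intro a b
      exact congrArg (kapU hi) (EL_spec τ 2 h2 0 a b)
    have h4 : ((e11 (LA hi 2)).map (V 2)).map (fun F => F 0) =
        (e11 (CM (gX (XT τ)))).map (kapU hi) := by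
      rw [e11_map, e11_map]
      have e := e11_map (Pi.evalRingHom (fun _ : ℝ≥0 => Unitization ℂ A) 0)
      exact e
    rw [h3, h4]
    refine SameK.map_true _ ?_
    exact (sameK_true_iff (bottE_path_idem τ 0) (e11_idem _)).2 (cls_bott_zero τ)
  have haug : SameK (fun _ => True) (((EA hi 2 h2).map (V 2)).map (fun F => (F 0).fst))
      (((e11 (LA hi 2)).map (V 2)).map (fun F => (F 0).fst)) := by
    have h3 : ∀ M : Matrix (Fin 2) (Fin 2) (LA hi 2),
        (M.map (V 2)).map (fun F => (F 0).fst) = M.map (augA hi 2) := fun M => rfl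
    rw [h3, h3, EA_aug]
    have h5 : (e11 (LA hi 2)).map (augA hi 2) = e11 ℂ :=
      e11_map (augA hi 2 : LA hi 2 →+* ℂ)
    rw [h5]
    exact (sameK_true_iff (e11_idem ℂ) (e11_idem ℂ)).2 rfl
  obtain ⟨N, hN, s, hs, hsame⟩ := hinj 2 2 ((EA hi 2 h2).map (V 2)) ((e11 (LA hi 2)).map (V 2))
    (fun j k => ⟨(EA hi 2 h2 j k).2, (e11 (LA hi 2) j k).2⟩)
    (by rw [← Matrix.map_mul, EA_idem]) (by rw [← Matrix.map_mul, e11_idem]) haug hev
  have h7 : (2 : ℝ) ≤ s := hs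
  have e1 : (EA hi 2 h2).map (V 2) = (EA hi s h7).map (V s) := by
    rw [← EA_incl hi h2 h7]
    rfl
  have e2 : (e11 (LA hi 2)).map (V 2) = (e11 (LA hi s)).map (V s) := by
    rw [e11_map, e11_map]
  rw [e1, e2, blockDiagonal_mapC, blockDiagonal_mapC] at hsame
  have h8 := SameK.lift (V s) (hV s) (fun F hF => ⟨⟨F, hF⟩, rfl⟩) hsame
  rw [sameK_true_iff (blockDiagonal_idem N (EA_idem hi s h7))
    (blockDiagonal_idem N (e11_idem _)), cls_blockDiagonal, cls_blockDiagonal] at h8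
  refine yA_not_torsion hi s h7 N hN ?_
  rw [yA, smul_sub, sub_eq_zero]
  exact h8

/-- For every completion of `ℂ[X]` in a C*-norm which is at least the operator norm, for every
Hilbert space with basis and every placement, the assembly map is not rationally injective. -/
theorem not_ratInjective {H : Type} [NormedAddCommGroup H] [InnerProductSpace ℂ H]
    [CompleteSpace H] (b : HilbertBasis (XT τ × ℕ) ℂ H) (i : (H →L[ℂ] H) → A)
    (p : XT τ × ℕ → XT τ →₀ ℚ) (hp : IsPlacement p) (h1 : StarHomOn (IsRoeOp b) i)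
    (h2 : Dense (i '' {T | IsRoeOp b T})) (h3 : ∀ T, IsRoeOp b T → ‖T‖ ≤ ‖i T‖) :
    ¬ RatInjective b i p := by
  obtain ⟨i', g1, g2, g3, g4⟩ := exists_std b i p hp h1 h2 h3
  have h := not_ratInjective_std τ (i := i') ⟨g1, g2, g3⟩
  have eL : (fun r => IsLoc b i p r) = fun r => IsLoc (stdB (XT τ × ℕ)) i' pC r :=
    funext fun r => funext fun F => propext (g4 r F)
  intro h0
  apply h
  intro r n e f
  have g5 := h0 r n e f
  simp only [g4] at g5
  intro k1 k2 k3 k4 k5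
  obtain ⟨N, hN, s, hs, h6⟩ := g5 k1 k2 k3 k4 k5
  refine ⟨N, hN, s, hs, ?_⟩
  have e2 : IsLoc b i p s = IsLoc (stdB (XT τ × ℕ)) i' pC s := congrFun eL s
  rwa [e2] at h6

end Main

end Vale.Agent.P212.H35
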