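import Vale.Agent.P212.Bdl.B4

/-! Independence of the localization algebras of the Hilbert space, the basis and the
placement: transport to the standard data. -/

namespace Vale.Agent.P212.H35

open NNReal

/-- Two placements differ by a permutation of the basis vectors which preserves the fibres. -/
theorem exists_perm {X : Type} [MetricSpace X] {p p' : X × ℕ → X →₀ ℚ} (hp : IsPlacement p)
    (hp' : IsPlacement p') :
    ∃ θ : (X × ℕ) ≃ (X × ℕ), (∀ j, (θ j).1 = j.1) ∧ ∀ j, p' (θ j) = p j := by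
  classical
  have key : ∀ x : X, ∃ e : ℕ ≃ ℕ, ∀ n, p' (x, e n) = p (x, n) := by
    intro x
    have h : ∀ c : X →₀ ℚ, Nonempty ({n // (fun n => p (x, n)) n = c} ≃
        {n // (fun n => p' (x, n)) n = c}) := by
      intro c
      by_cases hc : ∃ r, InRipsC r c ∧ x ∈ c.support
      · obtain ⟨r, hr, hx⟩ := hc
        have h1 : {n | p (x, n) = c}.Infinite := hp.2 r c hr x hx
        have h2 : {n | p' (x, n) = c}.Infinite := hp'.2 r c hr x hx
        have : Infinite {n // (fun n => p (x, n)) n = c} := h1.to_subtype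
        have : Infinite {n // (fun n => p' (x, n)) n = c} := h2.to_subtype
        exact nonempty_equiv_of_countable
      · have : IsEmpty {n // (fun n => p (x, n)) n = c} := by
          refine ⟨fun n => hc ?_⟩
          obtain ⟨r, h1, h2⟩ := hp.1 (x, n.1)
          have h3 : p (x, n.1) = c := n.2
          rw [h3] at h1 h2
          exact ⟨r, h1, h2⟩
        have : IsEmpty {n // (fun n => p' (x, n)) n = c} := by
          refine ⟨fun n => hc ?_⟩
          obtain ⟨r, h1, h2⟩ := hp'.1 (x, n.1)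
          have h3 : p' (x, n.1) = c := n.2
          rw [h3] at h1 h2
          exact ⟨r, h1, h2⟩
        exact ⟨Equiv.equivOfIsEmpty _ _⟩
    choose e he using fun c => Classical.exists_true_of_nonempty (h c)
    exact ⟨Equiv.ofFiberEquiv e, fun n => Equiv.ofFiberEquiv_map e n⟩
  choose e he using key
  refine ⟨Equiv.prodShear (Equiv.refl X) e, fun j => rfl, fun j => ?_⟩
  exact he j.1 j.2

set_option linter.unusedSectionVars false

section Transfer

variable {X : Type} [MetricSpace X] {H K : Type} [NormedAddCommGroup H] [InnerProductSpace ℂ H]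
  [CompleteSpace H] [NormedAddCommGroup K] [InnerProductSpace ℂ K] [CompleteSpace K]
  {b : HilbertBasis (X × ℕ) ℂ H} {b' : HilbertBasis (X × ℕ) ℂ K} {U : H ≃ₗᵢ[ℂ] K}
  {θ : (X × ℕ) ≃ (X × ℕ)}

theorem inner_conj (hU : ∀ j, U (b j) = b' (θ j)) (T : H →L[ℂ] H) (j k : X × ℕ) :
    inner ℂ (b' j) (U.conjStarAlgEquiv T (b' k)) =
      inner ℂ (b (θ.symm j)) (T (b (θ.symm k))) := by
  have h1 : b' j = U (b (θ.symm j)) := by rw [hU, θ.apply_symm_apply]
  have h2 : b' k = U (b (θ.symm k)) := by rw [hU, θ.apply_symm_apply]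
  rw [h1, h2, LinearIsometryEquiv.conjStarAlgEquiv_apply_apply, U.symm_apply_apply,
    U.inner_map_map]

theorem conj_symm_conj (T : H →L[ℂ] H) :
    U.symm.conjStarAlgEquiv (U.conjStarAlgEquiv T) = T := by
  ext x
  simp [LinearIsometryEquiv.conjStarAlgEquiv_apply_apply]

theorem conj_conj_symm (T : K →L[ℂ] K) :
    U.conjStarAlgEquiv (U.symm.conjStarAlgEquiv T) = T := by
  ext x
  simp [LinearIsometryEquiv.conjStarAlgEquiv_apply_apply]

theorem isCompactOperator_conj {T : H →L[ℂ] H} (hT : IsCompactOperator T) :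
    IsCompactOperator (U.conjStarAlgEquiv T) := by
  have h1 : IsCompactOperator (T ∘L (U.symm : K →L[ℂ] H)) := hT.comp_clm _
  exact h1.clm_comp (U : H →L[ℂ] K)

theorem isRoeOp_conj (hθ : ∀ j, (θ j).1 = j.1) (hU : ∀ j, U (b j) = b' (θ j))
    {T : H →L[ℂ] H} (hT : IsRoeOp b T) : IsRoeOp b' (U.conjStarAlgEquiv T) := by
  have hθ' : ∀ j, (θ.symm j).1 = j.1 := fun j => by
    have h := hθ (θ.symm j)
    rw [θ.apply_symm_apply] at h
    exact h.symm
  obtain ⟨⟨R, hR⟩, hc⟩ := hT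
  refine ⟨⟨R, fun j k hjk => ?_⟩, fun x y => ?_⟩
  · rw [inner_conj hU]
    exact hR _ _ (by rw [hθ', hθ']; exact hjk)
  · obtain ⟨L, hL, h1, h2⟩ := hc x y
    refine ⟨U.conjStarAlgEquiv L, isCompactOperator_conj hL, fun m n => ?_, fun j k h => ?_⟩
    · rw [inner_conj hU, inner_conj hU]
      have e1 : θ.symm (x, m) = (x, (θ.symm (x, m)).2) := Prod.ext (hθ' (x, m)) rfl
      have e2 : θ.symm (y, n) = (y, (θ.symm (y, n)).2) := Prod.ext (hθ' (y, n)) rfl
      rw [e1, e2]
      exact h1 _ _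
    · rw [inner_conj hU]
      exact h2 _ _ (by rw [hθ', hθ']; exact h)

theorem isLocalC_conj {p p' : X × ℕ → X →₀ ℚ} (hθ : ∀ j, (θ j).1 = j.1)
    (hp : ∀ j, p' (θ j) = p j) (hU : ∀ j, U (b j) = b' (θ j)) {r : ℝ}
    {T : ℝ≥0 → H →L[ℂ] H} (hT : IsLocalC b p r T) :
    IsLocalC b' p' r (fun t => U.conjStarAlgEquiv (T t)) := by
  have hp' : ∀ j, p' j = p (θ.symm j) := fun j => by
    rw [← hp, θ.apply_symm_apply]
  obtain ⟨h1, h2, h3⟩ := hT
  refine ⟨fun t => isRoeOp_conj hθ hU (h1 t), fun t j k h => ?_, fun ε hε => ?_⟩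
  · rw [inner_conj hU] at h
    rw [hp', hp']
    exact h2 t _ _ h
  · obtain ⟨t₀, ht₀⟩ := h3 ε hε
    refine ⟨t₀, fun t ht j k h => ?_⟩
    rw [inner_conj hU] at h
    rw [hp', hp']
    exact ht₀ t ht _ _ h

theorem isLoc_conj {p p' : X × ℕ → X →₀ ℚ} (hθ : ∀ j, (θ j).1 = j.1)
    (hp : ∀ j, p' (θ j) = p j) (hU : ∀ j, U (b j) = b' (θ j)) {r : ℝ} {A : Type}
    [NonUnitalCStarAlgebra A] {i : (H →L[ℂ] H) → A} {i' : (K →L[ℂ] K) → A}
    (hi : ∀ T, i' (U.conjStarAlgEquiv T) = i T) {F : ℝ≥0 → Unitization ℂ A}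
    (hF : IsLoc b i p r F) : IsLoc b' i' p' r F := by
  obtain ⟨c, f, hf, h⟩ := hF
  refine ⟨c, f, hf, fun ε hε => ?_⟩
  obtain ⟨T, hT, hu, hb, he⟩ := h ε hε
  refine ⟨fun t => U.conjStarAlgEquiv (T t), isLocalC_conj hθ hp hU hT, ?_, ?_, ?_⟩
  · simpa only [hi] using hu
  · simpa only [hi] using hb
  · simpa only [hi] using he

end Transfer

/-- Everything can be moved to the standard basis and the standard placement. -/
theorem exists_std {X : Type} [MetricSpace X] [BddGeometry X] {H A : Type}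
    [NormedAddCommGroup H] [InnerProductSpace ℂ H] [CompleteSpace H] [NonUnitalCStarAlgebra A]
    (b : HilbertBasis (X × ℕ) ℂ H) (i : (H →L[ℂ] H) → A) (p : X × ℕ → X →₀ ℚ)
    (hp : IsPlacement p) (h1 : StarHomOn (IsRoeOp b) i) (h2 : Dense (i '' {T | IsRoeOp b T}))
    (h3 : ∀ T, IsRoeOp b T → ‖T‖ ≤ ‖i T‖) :
    ∃ i' : BX X → A, StarHomOn (IsRoe (gX X)) i' ∧ Dense (i' '' {T | IsRoe (gX X) T}) ∧
      (∀ T, IsRoe (gX X) T → ‖T‖ ≤ ‖i' T‖) ∧
      ∀ r F, IsLoc b i p r F ↔ IsLoc (stdB (X × ℕ)) i' pC r F := by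
  obtain ⟨θ, hθ, hpθ⟩ := exists_perm hp (isPlacement_pC (X := X))
  -- the reindexed basis
  have ho : Orthonormal ℂ (fun j => b (θ.symm j)) := b.orthonormal.comp _ θ.symm.injective
  have hr : Set.range (fun j => b (θ.symm j)) = Set.range b := by
    ext x
    constructor
    · rintro ⟨j, rfl⟩
      exact ⟨_, rfl⟩
    · rintro ⟨j, rfl⟩
      exact ⟨θ j, by simp⟩
  let c : HilbertBasis (X × ℕ) ℂ H := HilbertBasis.mk ho (by
    rw [hr, b.dense_span])
  have hc : ∀ j, c j = b (θ.symm j) := fun j => by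
    have := congrFun (HilbertBasis.coe_mk ho (by rw [hr, b.dense_span])) j
    exact this
  let U : H ≃ₗᵢ[ℂ] HX X := c.repr
  have hUc : ∀ j, U (c j) = stdB (X × ℕ) j := by
    intro j
    rw [stdB_apply]
    let D : DecidableEq (X × ℕ) := fun a b => Classical.propDecidable (a = b)
    have h := @HilbertBasis.repr_self _ _ _ _ _ _ D c j
    exact h
  have hU : ∀ j, U (b j) = stdB (X × ℕ) (θ j) := by
    intro j
    have h := hUc (θ j)
    rwa [hc, θ.symm_apply_apply] at h
  have hU' : ∀ j, U.symm (stdB (X × ℕ) j) = b (θ.symm j) := by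
    intro j
    rw [LinearIsometryEquiv.symm_apply_eq, hU, θ.apply_symm_apply]
  have hθ' : ∀ j, (θ.symm j).1 = j.1 := fun j => by
    have h := hθ (θ.symm j)
    rw [θ.apply_symm_apply] at h
    exact h.symm
  have hpθ' : ∀ j, p (θ.symm j) = pC j := fun j => by
    rw [← hpθ, θ.apply_symm_apply]
  let i' : BX X → A := fun T => i (U.symm.conjStarAlgEquiv T)
  have hii : ∀ T, i' (U.conjStarAlgEquiv T) = i T := fun T => by
    change i (U.symm.conjStarAlgEquiv (U.conjStarAlgEquiv T)) = i T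
    rw [conj_symm_conj]
  have hR : ∀ T : BX X, IsRoe (gX X) T → IsRoeOp b (U.symm.conjStarAlgEquiv T) := fun T hT =>
    isRoeOp_conj (U := U.symm) hθ' hU' ((isRoeOp_iff T).2 hT)
  have hR' : ∀ T : H →L[ℂ] H, IsRoeOp b T → IsRoe (gX X) (U.conjStarAlgEquiv T) := fun T hT =>
    (isRoeOp_iff _).1 (isRoeOp_conj hθ hU hT)
  refine ⟨i', ?_, ?_, ?_, fun r F => ⟨fun h => isLoc_conj hθ hpθ hU hii h, fun h =>
    isLoc_conj (U := U.symm) hθ' hpθ' hU' (fun T => rfl) h⟩⟩
  · intro S T hS hT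
    have h := h1 _ _ (hR S hS) (hR T hT)
    refine ⟨?_, ?_, ?_, fun z => ?_⟩
    · change i (U.symm.conjStarAlgEquiv (S + T)) = _
      rw [map_add]
      exact h.1
    · change i (U.symm.conjStarAlgEquiv (S * T)) = _
      rw [map_mul]
      exact h.2.1
    · change i (U.symm.conjStarAlgEquiv (star T)) = _
      rw [map_star]
      exact h.2.2.1
    · change i (U.symm.conjStarAlgEquiv (z • T)) = _
      rw [map_smul]
      exact h.2.2.2 z
  · have h : i' '' {T | IsRoe (gX X) T} = i '' {T | IsRoeOp b T} := by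
      ext a
      constructor
      · rintro ⟨T, hT, rfl⟩
        exact ⟨_, hR T hT, rfl⟩
      · rintro ⟨T, hT, rfl⟩
        exact ⟨_, hR' T hT, hii T⟩
    rw [h]
    exact h2
  · intro T hT
    have h := h3 _ (hR T hT)
    have hn : ‖U.symm.conjStarAlgEquiv T‖ = ‖T‖ :=
      StarAlgEquiv.norm_map U.symm.conjStarAlgEquiv T
    rw [hn] at h
    exact h

end Vale.Agent.P212.H35
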